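import Vale.Agent.P083.CuntzDef
import Mathlib.Analysis.CStarAlgebra.lpSpace
import Mathlib.RingTheory.Ideal.Quotient.Operations

/-!
# The Cuntz algebra as a universal C*-algebra, the norm ultrapower as a quotient
-/

open Filter Topology
open scoped ENNReal

namespace Vale.Agent.P083W

noncomputable section

/-- `t₁`, `t₂` are isometries with `t₁ t₁* + t₂ t₂* = 1`. -/
def CuntzRel {B : Type} [CStarAlgebra B] (t₁ t₂ : B) : Prop :=
  star t₁ * t₁ = 1 ∧ star t₂ * t₂ = 1 ∧ t₁ * star t₁ + t₂ * star t₂ = 1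

/-- `O` with the generators `s₁`, `s₂` is the Cuntz algebra `O₂`: the universal unital C*-algebra
generated by two isometries `s₁`, `s₂` with `s₁ s₁* + s₂ s₂* = 1`. -/
def IsO2 {O : Type} [CStarAlgebra O] (s₁ s₂ : O) : Prop :=
  CuntzRel s₁ s₂ ∧ ∀ (B : Type) [CStarAlgebra B] (t₁ t₂ : B), CuntzRel t₁ t₂ →
    ∃! φ : O →⋆ₐ[ℂ] B, φ s₁ = t₁ ∧ φ s₂ = t₂

variable (ω : Ultrafilter ℕ) (B : Type) [CStarAlgebra B] [Nontrivial B]

/-- `ℓ^∞(ℕ, B)`: the C*-algebra of norm-bounded sequences in `B` with the supremum norm. -/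
abbrev Linf : Type := lp (fun _ : ℕ => B) ∞

/-- The ideal `I_ω(B)` of the bounded sequences `(b_n)` with `lim_ω ‖b_n‖ = 0`. -/
def Iω : Ideal (Linf B) where
  carrier := {x | Tendsto (fun n => ‖x n‖) ω (𝓝 0)}
  add_mem' := fun {x y} hx hy => by
    have h : Tendsto (fun n => ‖x n‖ + ‖y n‖) ω (𝓝 0) := by simpa using Tendsto.add hx hy
    exact squeeze_zero (fun n => norm_nonneg _) (fun n => norm_add_le (x n) (y n)) h
  zero_mem' := by
    show Tendsto (fun n => ‖((0 : Linf B) : ℕ → B) n‖) ω (𝓝 0)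
    simp
  smul_mem' := fun c {x} hx => by
    have h : Tendsto (fun n => ‖c‖ * ‖x n‖) ω (𝓝 0) := by
      simpa using Tendsto.const_mul ‖c‖ hx
    refine squeeze_zero (fun n => norm_nonneg _) (fun n => ?_) h
    exact (norm_mul_le (c n) (x n)).trans
      (mul_le_mul_of_nonneg_right (lp.norm_apply_le_norm (by simp) c n) (norm_nonneg _))

instance : (Iω ω B).IsTwoSided := ⟨fun {x} c hx => by
  have h : Tendsto (fun n => ‖x n‖ * ‖c‖) ω (𝓝 0) := by
    simpa using Tendsto.mul_const ‖c‖ hx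
  refine squeeze_zero (fun n => norm_nonneg _) (fun n => ?_) h
  exact (norm_mul_le (x n) (c n)).trans
    (mul_le_mul_of_nonneg_left (lp.norm_apply_le_norm (by simp) c n) (norm_nonneg _))⟩

/-- The norm ultrapower `B^ω = ℓ^∞(ℕ, B) / I_ω(B)`. -/
def UPow : Type := Linf B ⧸ Iω ω B

instance : Ring (UPow ω B) := Ideal.Quotient.ring (Iω ω B)

instance : Algebra ℂ (UPow ω B) := Ideal.Quotient.algebra ℂ (I := Iω ω B)

/-- The involution of the ultrapower: the class of `(b_n)` goes to the class of `(b_n*)`. -/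
instance : Star (UPow ω B) := ⟨Quotient.map' star fun x y hxy => by
  rw [Submodule.quotientRel_def] at hxy ⊢
  have h : Tendsto (fun n => ‖x n - y n‖) ω (𝓝 0) := hxy
  show Tendsto (fun n => ‖star (x n) - star (y n)‖) ω (𝓝 0)
  simpa only [← star_sub, norm_star] using h⟩

/-- `A` admits a unital embedding (an injective unital *-homomorphism) into `B^ω`. -/
def EmbedsUnitally (A : Type) [CStarAlgebra A] : Prop :=
  ∃ φ : A →⋆ₐ[ℂ] UPow ω B, Function.Injective φ

/-- `A` admits an embedding (an injective *-homomorphism, unital or not) into `B^ω`. -/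
def Embeds (A : Type) [CStarAlgebra A] : Prop :=
  ∃ φ : A →⋆ₙₐ[ℂ] UPow ω B, Function.Injective φ

end

end Vale.Agent.P083W
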