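import Vale.Agent.P083.CuntzDef
import Mathlib.Analysis.CStarAlgebra.Hom
import Mathlib.Analysis.CStarAlgebra.ContinuousLinearMap
import Mathlib.Analysis.InnerProductSpace.PiL2
import Mathlib.Analysis.InnerProductSpace.Adjoint
import Mathlib.Topology.Algebra.StarSubalgebra

open scoped InnerProductSpace ComplexConjugate

namespace Vale.Agent.P083W.K

open Vale.Agent.P083

noncomputable section

section Rel

variable {O : Type*} [CStarAlgebra O] {s₁ s₂ : O}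

theorem corth (h : CuntzTwo s₁ s₂) : star s₁ * s₂ = 0 := by
  have h1 : star s₂ * (s₁ * star s₁ + s₂ * star s₂) * s₂ = 1 := by
    rw [h.sum, mul_one, h.iso₂]
  have h2 : star (star s₁ * s₂) * (star s₁ * s₂) + (star s₂ * s₂) * (star s₂ * s₂) = 1 := by
    rw [← h1]; simp only [star_mul, star_star]; noncomm_ring
  rw [h.iso₂, mul_one] at h2
  have h3 : star (star s₁ * s₂) * (star s₁ * s₂) = 0 := by simpa only [star_mul, star_star, add_eq_right] using h2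
  exact (CStarRing.star_mul_self_eq_zero_iff _).1 h3

theorem corth' (h : CuntzTwo s₁ s₂) : star s₂ * s₁ = 0 := by
  have := congrArg star (corth h)
  simpa only [star_mul, star_star, star_zero] using this

theorem cnorm_le (h : CuntzTwo s₁ s₂) : ‖s₁‖ ≤ 1 ∧ ‖s₂‖ ≤ 1 := by
  rcases subsingleton_or_nontrivial O with hO | hO
  · constructor
    · rw [Subsingleton.elim s₁ 0]; simp only [norm_zero, zero_le_one]
    · rw [Subsingleton.elim s₂ 0]; simp
  · constructor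
    · have h1 : ‖s₁‖ * ‖s₁‖ = 1 := by rw [← CStarRing.norm_star_mul_self, h.iso₁, CStarRing.norm_one]
      nlinarith [norm_nonneg s₁]
    · have h1 : ‖s₂‖ * ‖s₂‖ = 1 := by rw [← CStarRing.norm_star_mul_self, h.iso₂, CStarRing.norm_one]
      nlinarith only [h1]

end Rel

section Tower

variable {O : Type*} [CStarAlgebra O] {s₁ s₂ : O}
variable {H : Type*} [NormedAddCommGroup H] [InnerProductSpace ℂ H] [CompleteSpace H]
variable (π : O →⋆ₐ[ℂ] (H →L[ℂ] H))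

/-- one step of the tower -/
def lam (s₁ s₂ : O) (U : H →ₗ[ℂ] O) : H →ₗ[ℂ] O :=
  (LinearMap.mulLeft ℂ s₁) ∘ₗ U ∘ₗ (π (star s₁) : H →ₗ[ℂ] H) +
  (LinearMap.mulLeft ℂ s₂) ∘ₗ U ∘ₗ (π (star s₂) : H →ₗ[ℂ] H)

theorem lam_apply (U : H →ₗ[ℂ] O) (η : H) :
    lam π s₁ s₂ U η = s₁ * U (π (star s₁) η) + s₂ * U (π (star s₂) η) := rfl

theorem pi_inner (x : O) (ξ η : H) : ⟪π (star x) ξ, η⟫_ℂ = ⟪ξ, π x η⟫_ℂ := by
  rw [map_star, ContinuousLinearMap.star_eq_adjoint, ContinuousLinearMap.adjoint_inner_left]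

theorem pi_inner' (x : O) (ξ η : H) : ⟪π x ξ, η⟫_ℂ = ⟪ξ, π (star x) η⟫_ℂ := by
  rw [map_star, ContinuousLinearMap.star_eq_adjoint, ContinuousLinearMap.adjoint_inner_right]

theorem pi_mul_apply (x y : O) (η : H) : π x (π y η) = π (x * y) η := by
  rw [map_mul]; rfl

theorem norm_pi_apply_le (x : O) (η : H) : ‖π x η‖ ≤ ‖x‖ * ‖η‖ :=
  ((π x).le_opNorm η).trans (by gcongr; exact NonUnitalStarAlgHom.norm_apply_le π x)

theorem inner_cuntz_sum (h : CuntzTwo s₁ s₂) (ξ η : H) :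
    ⟪π (star s₁) ξ, π (star s₁) η⟫_ℂ + ⟪π (star s₂) ξ, π (star s₂) η⟫_ℂ = ⟪ξ, η⟫_ℂ := by
  rw [pi_inner, pi_inner, pi_mul_apply, pi_mul_apply, ← inner_add_right,
    ← add_apply, ← map_add, h.sum, map_one]
  rfl

theorem norm_sq_sum (h : CuntzTwo s₁ s₂) (η : H) :
    ‖π (star s₁) η‖ ^ 2 + ‖π (star s₂) η‖ ^ 2 = ‖η‖ ^ 2 := by
  have := inner_cuntz_sum π h η η
  simp only [inner_self_eq_norm_sq_to_K] at this
  exact_mod_cast this

theorem star_lam_mul_lam (h : CuntzTwo s₁ s₂) (U U' : H →ₗ[ℂ] O) (ξ η : H) :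
    star (lam π s₁ s₂ U ξ) * lam π s₁ s₂ U' η =
      star (U (π (star s₁) ξ)) * U' (π (star s₁) η) +
      star (U (π (star s₂) ξ)) * U' (π (star s₂) η) := by
  rw [lam_apply, lam_apply, star_add, star_mul, star_mul, add_mul, mul_add, mul_add]
  have e1 : star (U (π (star s₁) ξ)) * star s₁ * (s₁ * U' (π (star s₁) η))
      = star (U (π (star s₁) ξ)) * (star s₁ * s₁) * U' (π (star s₁) η) := by noncomm_ring
  have e2 : star (U (π (star s₁) ξ)) * star s₁ * (s₂ * U' (π (star s₂) η))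
      = star (U (π (star s₁) ξ)) * (star s₁ * s₂) * U' (π (star s₂) η) := by noncomm_ring
  have e3 : star (U (π (star s₂) ξ)) * star s₂ * (s₁ * U' (π (star s₁) η))
      = star (U (π (star s₂) ξ)) * (star s₂ * s₁) * U' (π (star s₁) η) := by noncomm_ring
  have e4 : star (U (π (star s₂) ξ)) * star s₂ * (s₂ * U' (π (star s₂) η))
      = star (U (π (star s₂) ξ)) * (star s₂ * s₂) * U' (π (star s₂) η) := by noncomm_ring
  rw [e1, e2, e3, e4, h.iso₁, h.iso₂, corth h, corth' h]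
  simp only [mul_one, mul_zero, zero_mul, add_zero, zero_add]

theorem star_s₁_lam (h : CuntzTwo s₁ s₂) (U : H →ₗ[ℂ] O) (η : H) :
    star s₁ * lam π s₁ s₂ U η = U (π (star s₁) η) := by
  rw [lam_apply, mul_add, ← mul_assoc, ← mul_assoc, h.iso₁, corth h]; simp only [one_mul, zero_mul, add_zero]

theorem star_s₂_lam (h : CuntzTwo s₁ s₂) (U : H →ₗ[ℂ] O) (η : H) :
    star s₂ * lam π s₁ s₂ U η = U (π (star s₂) η) := by
  rw [lam_apply, mul_add, ← mul_assoc, ← mul_assoc, h.iso₂, corth' h]; simp only [zero_mul, one_mul, zero_add]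

theorem lam_pi_s₁ (h : CuntzTwo s₁ s₂) (U : H →ₗ[ℂ] O) (η : H) :
    lam π s₁ s₂ U (π s₁ η) = s₁ * U η := by
  rw [lam_apply, pi_mul_apply, pi_mul_apply, h.iso₁, corth' h]; simp

theorem lam_pi_s₂ (h : CuntzTwo s₁ s₂) (U : H →ₗ[ℂ] O) (η : H) :
    lam π s₁ s₂ U (π s₂ η) = s₂ * U η := by
  rw [lam_apply, pi_mul_apply, pi_mul_apply, h.iso₂, corth h]; simp

theorem norm_lam_le (h : CuntzTwo s₁ s₂) (U : H →ₗ[ℂ] O) (hU : ∀ η, ‖U η‖ ≤ ‖η‖) (η : H) :
    ‖lam π s₁ s₂ U η‖ ≤ ‖η‖ := by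
  have h1 : ‖lam π s₁ s₂ U η‖ ^ 2 ≤ ‖η‖ ^ 2 := by
    rw [pow_two, ← CStarRing.norm_star_mul_self, star_lam_mul_lam π h, ← norm_sq_sum π h η]
    refine (norm_add_le _ _).trans ?_
    rw [CStarRing.norm_star_mul_self, CStarRing.norm_star_mul_self, ← pow_two, ← pow_two]
    gcongr
    · exact hU _
    · exact hU _
  exact le_of_sq_le_sq h1 (norm_nonneg _)

theorem norm_iter_lam_le (h : CuntzTwo s₁ s₂) (U : H →ₗ[ℂ] O) (hU : ∀ η, ‖U η‖ ≤ ‖η‖) (n : ℕ)
    (η : H) : ‖(lam π s₁ s₂)^[n] U η‖ ≤ ‖η‖ := by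
  induction n generalizing η with
  | zero => exact hU η
  | succ n ih => rw [Function.iterate_succ_apply']; exact norm_lam_le π h _ ih η

theorem iter_orth (h : CuntzTwo s₁ s₂) (U U' : H →ₗ[ℂ] O)
    (hU : ∀ ξ η, star (U ξ) * U' η = 0) (n : ℕ) (ξ η : H) :
    star ((lam π s₁ s₂)^[n] U ξ) * (lam π s₁ s₂)^[n] U' η = 0 := by
  induction n generalizing ξ η with
  | zero => exact hU ξ η
  | succ n ih =>
    rw [Function.iterate_succ_apply', Function.iterate_succ_apply', star_lam_mul_lam π h, ih, ih,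
      add_zero]

theorem star_s₁_pow_iter (h : CuntzTwo s₁ s₂) (U : H →ₗ[ℂ] O) (n : ℕ) (η : H) :
    (star s₁) ^ n * (lam π s₁ s₂)^[n] U η = U (π ((star s₁) ^ n) η) := by
  induction n generalizing η with
  | zero => simp only [pow_zero, Function.iterate_zero, id_eq, one_mul, map_one, one_apply_eq_self]
  | succ n ih =>
    rw [pow_succ, mul_assoc, Function.iterate_succ_apply', star_s₁_lam π h, ih, pi_mul_apply]

theorem star_s₁_pow_mul (h : CuntzTwo s₁ s₂) (n : ℕ) : (star s₁) ^ n * s₁ ^ n = 1 := by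
  induction n with
  | zero => simp only [pow_zero, mul_one]
  | succ n ih =>
    rw [pow_succ, pow_succ', mul_assoc, ← mul_assoc (star s₁) s₁, h.iso₁, one_mul, ih]

theorem star_s₂_pow_mul (h : CuntzTwo s₁ s₂) (n : ℕ) : (star s₂) ^ n * s₂ ^ n = 1 := by
  induction n with
  | zero => simp only [pow_zero, mul_one]
  | succ n ih =>
    rw [pow_succ, pow_succ', mul_assoc, ← mul_assoc (star s₂) s₂, h.iso₂, one_mul, ih]

/-- no overlap of the word `s₁^N s₂^N` -/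
theorem base_orth (h : CuntzTwo s₁ s₂) (W : H →ₗ[ℂ] O) (N d : ℕ) (hd : 1 ≤ d) (hdN : d ≤ N)
    (U : H →ₗ[ℂ] O) (hU : ∀ η, U η = s₁ ^ N * s₂ ^ N * W η) (ξ η : H) :
    star (U ξ) * (lam π s₁ s₂)^[d] U η = 0 := by
  obtain ⟨m, rfl⟩ := Nat.exists_eq_add_of_le hdN
  obtain ⟨d, rfl⟩ : ∃ e, d = e + 1 := ⟨d - 1, by omega⟩
  have key : (star s₁) ^ (d + 1 + m) * (lam π s₁ s₂)^[d + 1] U η =
      s₁ ^ (d + 1) * s₂ ^ (d + 1 + m) * W (π ((star s₁) ^ (d + 1)) η) := by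
    rw [add_comm (d + 1) m, pow_add, mul_assoc, star_s₁_pow_iter π h, hU, ← mul_assoc, ← mul_assoc]
    rw [show s₁ ^ (d + 1 + m) = s₁ ^ m * s₁ ^ (d + 1) by rw [← pow_add, add_comm], ← mul_assoc,
      star_s₁_pow_mul h, one_mul, add_comm m (d + 1)]
  have h2 : (star s₂) ^ (d + 1 + m) * s₁ ^ (d + 1) = 0 := by
    rw [show d + 1 + m = (d + m) + 1 by ring, pow_succ, pow_succ' s₁, mul_assoc,
      ← mul_assoc (star s₂), corth' h]
    simp only [zero_mul, mul_zero]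
  calc star (U ξ) * (lam π s₁ s₂)^[d + 1] U η
      = star (W ξ) * ((star s₂) ^ (d + 1 + m) * ((star s₁) ^ (d + 1 + m) *
          (lam π s₁ s₂)^[d + 1] U η)) := by
        rw [hU ξ]; simp only [star_mul, star_pow]; noncomm_ring
    _ = star (W ξ) * (((star s₂) ^ (d + 1 + m) * s₁ ^ (d + 1)) * s₂ ^ (d + 1 + m) *
          W (π ((star s₁) ^ (d + 1)) η)) := by rw [key]; noncomm_ring
    _ = 0 := by rw [h2]; simp only [zero_mul, map_pow, pow_apply_eq_iterate, Function.iterate_succ, Function.comp_apply, mul_zero]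

theorem t_orth (h : CuntzTwo s₁ s₂) (j k : ℕ) :
    star (s₁ ^ j * s₂) * (s₁ ^ k * s₂) = if j = k then 1 else 0 := by
  have aux : ∀ j d : ℕ, star (s₁ ^ j * s₂) * (s₁ ^ (j + (d + 1)) * s₂) = 0 := by
    intro j d
    calc star (s₁ ^ j * s₂) * (s₁ ^ (j + (d + 1)) * s₂)
        = star s₂ * ((star s₁) ^ j * s₁ ^ j) * s₁ * s₁ ^ d * s₂ := by
          rw [pow_add, pow_succ' s₁ d, star_mul, star_pow]; noncomm_ring
      _ = 0 := by rw [star_s₁_pow_mul h, mul_one, corth' h]; simp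
  rcases lt_trichotomy j k with hjk | rfl | hjk
  · obtain ⟨d, rfl⟩ : ∃ d, k = j + (d + 1) := ⟨k - j - 1, by omega⟩
    rw [aux, if_neg (by omega)]
  · rw [if_pos rfl, star_mul, star_pow]
    calc star s₂ * star s₁ ^ j * (s₁ ^ j * s₂) = star s₂ * (star s₁ ^ j * s₁ ^ j) * s₂ := by
          noncomm_ring
      _ = 1 := by rw [star_s₁_pow_mul h, mul_one, h.iso₂]
  · obtain ⟨d, rfl⟩ : ∃ d, j = k + (d + 1) := ⟨j - k - 1, by omega⟩
    rw [if_neg (by omega)]
    have := congrArg star (aux k d)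
    simpa only [star_mul, star_pow, star_star, star_zero] using this

omit [CompleteSpace H] in
/-- An isometric copy of a finite-dimensional space inside `O`. -/
theorem exists_W (h : CuntzTwo s₁ s₂) (L : Submodule ℂ H) [FiniteDimensional ℂ L] :
    ∃ W : H →ₗ[ℂ] O, (∀ η, ‖W η‖ ≤ ‖η‖) ∧
      ∀ ξ ∈ L, ∀ η, star (W ξ) * W η = ⟪ξ, η⟫_ℂ • (1 : O) := by
  let b := stdOrthonormalBasis ℂ L
  let e : Fin (Module.finrank ℂ L) → H := fun k => (b k : H)
  have he : Orthonormal ℂ e := by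
    have := b.orthonormal
    exact this.comp_linearIsometry L.subtypeₗᵢ
  let W : H →ₗ[ℂ] O :=
    ∑ k : Fin (Module.finrank ℂ L),
      (innerSL ℂ (e k) : H →ₗ[ℂ] ℂ).smulRight (s₁ ^ (k : ℕ) * s₂)
  have hW : ∀ η, W η = ∑ k, ⟪e k, η⟫_ℂ • (s₁ ^ (k : ℕ) * s₂) := by
    intro η
    simp only [ContinuousLinearMap.toLinearMap_innerSL_apply, LinearMap.sum_apply, LinearMap.coe_smulRight, innerₛₗ_apply_apply, W]
  have hWW : ∀ ξ η, star (W ξ) * W η = (∑ k, ⟪ξ, e k⟫_ℂ * ⟪e k, η⟫_ℂ) • (1 : O) := by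
    intro ξ η
    rw [hW, hW, star_sum, Finset.sum_mul, Finset.sum_smul]
    refine Finset.sum_congr rfl fun j _ => ?_
    rw [Finset.mul_sum, Finset.sum_eq_single j]
    · rw [star_smul, smul_mul_smul_comm, t_orth h, if_pos rfl]
      congr 1
      rw [RCLike.star_def, inner_conj_symm]
    · intro k _ hkj
      rw [star_smul, smul_mul_smul_comm, t_orth h, if_neg, smul_zero]
      intro hc
      exact hkj (Fin.ext hc.symm)
    · simp
  refine ⟨W, fun η => ?_, fun ξ hξ η => ?_⟩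
  · have h1 : ‖W η‖ ^ 2 ≤ ‖η‖ ^ 2 := by
      rw [pow_two, ← CStarRing.norm_star_mul_self, hWW]
      have h2 : (∑ k, ⟪η, e k⟫_ℂ * ⟪e k, η⟫_ℂ) = ((∑ k, ‖⟪e k, η⟫_ℂ‖ ^ 2 : ℝ) : ℂ) := by
        push_cast
        refine Finset.sum_congr rfl fun k _ => ?_
        rw [← inner_conj_symm η (e k)]
        exact RCLike.conj_mul _
      rw [h2, norm_smul]
      have h3 : (∑ k, ‖⟪e k, η⟫_ℂ‖ ^ 2) ≤ ‖η‖ ^ 2 := he.sum_inner_products_le η (s := Finset.univ)
      have h4 : ‖(1 : O)‖ ≤ 1 := by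
        rcases subsingleton_or_nontrivial O with hO | hO
        · rw [Subsingleton.elim (1 : O) 0]; simp
        · rw [CStarRing.norm_one]
      have h5 : (0:ℝ) ≤ ∑ k, ‖⟪e k, η⟫_ℂ‖ ^ 2 := Finset.sum_nonneg fun k _ => by positivity
      rw [Complex.norm_real, Real.norm_of_nonneg h5]
      calc _ ≤ (∑ k, ‖⟪e k, η⟫_ℂ‖ ^ 2) * 1 := by gcongr
        _ ≤ _ := by rw [mul_one]; exact h3
    exact le_of_sq_le_sq h1 (norm_nonneg _)
  · rw [hWW]
    congr 1
    have h1 : ∑ k, ⟪e k, ξ⟫_ℂ • e k = ξ := by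
      have := b.sum_repr' ⟨ξ, hξ⟩
      have h2 := congrArg (Subtype.val) this
      simpa only [Submodule.coe_inner, AddSubmonoidClass.coe_finsetSum, SetLike.val_smul] using h2
    conv_rhs => rw [← h1, sum_inner]
    refine Finset.sum_congr rfl fun k _ => ?_
    rw [inner_smul_left, inner_conj_symm]

/-- the filtration generated by `ξ` -/
def filt (s₁ s₂ : O) (ξ : H) : ℕ → Submodule ℂ H
  | 0 => Submodule.span ℂ {ξ}
  | n + 1 => filt s₁ s₂ ξ n ⊔ ((filt s₁ s₂ ξ n).map (π (star s₁) : H →ₗ[ℂ] H) ⊔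
      (filt s₁ s₂ ξ n).map (π (star s₂) : H →ₗ[ℂ] H))

theorem filt_zero (ξ : H) : filt π s₁ s₂ ξ 0 = Submodule.span ℂ {ξ} := rfl

theorem filt_succ (ξ : H) (n : ℕ) : filt π s₁ s₂ ξ (n + 1) =
    filt π s₁ s₂ ξ n ⊔ ((filt π s₁ s₂ ξ n).map (π (star s₁) : H →ₗ[ℂ] H) ⊔
      (filt π s₁ s₂ ξ n).map (π (star s₂) : H →ₗ[ℂ] H)) := rfl

instance (ξ : H) (n : ℕ) : FiniteDimensional ℂ (filt π s₁ s₂ ξ n) := by
  induction n with
  | zero => rw [filt_zero]; infer_instance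
  | succ n ih => rw [filt_succ]; infer_instance

theorem filt_mono (ξ : H) {m n : ℕ} (hmn : m ≤ n) : filt π s₁ s₂ ξ m ≤ filt π s₁ s₂ ξ n := by
  induction hmn with
  | refl => exact le_rfl
  | step _ ih => exact ih.trans le_sup_left

theorem filt_s₁ (ξ : H) (n : ℕ) {η : H} (hη : η ∈ filt π s₁ s₂ ξ n) :
    π (star s₁) η ∈ filt π s₁ s₂ ξ (n + 1) :=
  (le_sup_left.trans le_sup_right : _ ≤ filt π s₁ s₂ ξ (n + 1)) (Submodule.mem_map_of_mem hη)

theorem filt_s₂ (ξ : H) (n : ℕ) {η : H} (hη : η ∈ filt π s₁ s₂ ξ n) :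
    π (star s₂) η ∈ filt π s₁ s₂ ξ (n + 1) :=
  (le_sup_right.trans le_sup_right : _ ≤ filt π s₁ s₂ ξ (n + 1)) (Submodule.mem_map_of_mem hη)

theorem mem_filt_zero (ξ : H) : ξ ∈ filt π s₁ s₂ ξ 0 := Submodule.mem_span_singleton_self ξ

theorem iter_inner (h : CuntzTwo s₁ s₂) (ξ₀ : H) (N : ℕ) (U : H →ₗ[ℂ] O)
    (hU : ∀ ξ ∈ filt π s₁ s₂ ξ₀ N, ∀ η, star (U ξ) * U η = ⟪ξ, η⟫_ℂ • (1 : O)) (n : ℕ) :
    ∀ m, m + n ≤ N → ∀ ξ ∈ filt π s₁ s₂ ξ₀ m, ∀ η,
      star ((lam π s₁ s₂)^[n] U ξ) * (lam π s₁ s₂)^[n] U η = ⟪ξ, η⟫_ℂ • (1 : O) := by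
  induction n with
  | zero => intro m hm ξ hξ η; exact hU ξ (filt_mono π ξ₀ (by omega) hξ) η
  | succ n ih =>
    intro m hm ξ hξ η
    rw [Function.iterate_succ_apply', star_lam_mul_lam π h,
      ih (m + 1) (by omega) _ (filt_s₁ π ξ₀ m hξ), ih (m + 1) (by omega) _ (filt_s₂ π ξ₀ m hξ),
      ← add_smul, inner_cuntz_sum π h]

/-- The explicit tower: a linear map `V : H → O`, isometric in the strong sense on `ξ₀`, which
almost intertwines the generators. -/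
theorem tower (h : CuntzTwo s₁ s₂) (ξ₀ : H) (N : ℕ) (hN : 0 < N) :
    ∃ V : H →ₗ[ℂ] O, (∀ η, ‖V η‖ ≤ ‖η‖) ∧ (∀ η, star (V ξ₀) * V η = ⟪ξ₀, η⟫_ℂ • (1 : O)) ∧
      (∀ η, ‖s₁ * V η - V (π s₁ η)‖ ≤ 2 / √N * ‖η‖) ∧
      (∀ η, ‖s₂ * V η - V (π s₂ η)‖ ≤ 2 / √N * ‖η‖) ∧
      (∀ η, ‖star s₁ * V η - V (π (star s₁) η)‖ ≤ 2 / √N * ‖η‖) ∧
      (∀ η, ‖star s₂ * V η - V (π (star s₂) η)‖ ≤ 2 / √N * ‖η‖) := by
  obtain ⟨W, hW1, hW2⟩ := exists_W (H := H) h (filt π s₁ s₂ ξ₀ N)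
  let U : H →ₗ[ℂ] O := (LinearMap.mulLeft ℂ (s₁ ^ N * s₂ ^ N)) ∘ₗ W
  have hU : ∀ η, U η = s₁ ^ N * s₂ ^ N * W η := fun η => rfl
  have hUU : ∀ ξ η, star (U ξ) * U η = star (W ξ) * W η := by
    intro ξ η
    calc star (U ξ) * U η = star (W ξ) * ((star s₂) ^ N * ((star s₁) ^ N * s₁ ^ N) * s₂ ^ N) *
          W η := by rw [hU, hU]; simp only [star_mul, star_pow]; noncomm_ring
      _ = star (W ξ) * W η := by
          rw [star_s₁_pow_mul h, mul_one, star_s₂_pow_mul h, mul_one]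
  have hUn : ∀ η, ‖U η‖ ≤ ‖η‖ := by
    intro η
    have h1 : ‖U η‖ ^ 2 ≤ ‖η‖ ^ 2 := by
      rw [pow_two, ← CStarRing.norm_star_mul_self, hUU, CStarRing.norm_star_mul_self, ← pow_two]
      gcongr
      exact hW1 η
    exact le_of_sq_le_sq h1 (norm_nonneg _)
  let F : ℕ → (H →ₗ[ℂ] O) := fun n => (lam π s₁ s₂)^[n] U
  have hF0 : F 0 = U := rfl
  have hFs : ∀ n, F (n + 1) = lam π s₁ s₂ (F n) := fun n => Function.iterate_succ_apply' _ _ _
  have hFn : ∀ n η, ‖F n η‖ ≤ ‖η‖ := fun n η => norm_iter_lam_le π h U hUn n η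
  have hcross : ∀ a b, a < N → b < N → a ≠ b → ∀ ξ η, star (F a ξ) * F b η = 0 := by
    have aux : ∀ a d, a + (d + 1) < N → ∀ ξ η, star (F a ξ) * F (a + (d + 1)) η = 0 := by
      intro a d had ξ η
      have : F (a + (d + 1)) = (lam π s₁ s₂)^[a] ((lam π s₁ s₂)^[d + 1] U) :=
        Function.iterate_add_apply _ _ _ _
      rw [this]
      exact iter_orth π h U _ (fun ξ η => base_orth π h W N (d + 1) (by omega) (by omega) U hU ξ η)
        a ξ η
    intro a b ha hb hab ξ η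
    rcases lt_or_gt_of_ne hab with hlt | hlt
    · obtain ⟨d, rfl⟩ : ∃ d, b = a + (d + 1) := ⟨b - a - 1, by omega⟩
      exact aux a d hb ξ η
    · obtain ⟨d, rfl⟩ : ∃ d, a = b + (d + 1) := ⟨a - b - 1, by omega⟩
      have := congrArg star (aux b d ha η ξ)
      simpa only [star_mul, star_star, star_zero] using this
  have hNpos : (0 : ℝ) < N := by exact_mod_cast hN
  have hsq : (0 : ℝ) < √N := Real.sqrt_pos.2 hNpos
  let c : ℂ := ((1 / √N : ℝ) : ℂ)
  have hcc : (starRingEnd ℂ) c * c * (N : ℂ) = 1 := by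
    have : (starRingEnd ℂ) c = c := Complex.conj_ofReal _
    rw [this]
    have h2 : (1 / √(N:ℝ)) * (1 / √N) * N = 1 := by
      have := Real.mul_self_sqrt hNpos.le
      field_simp
      rw [pow_two, this]
    have h3 : (((1 / √(N:ℝ)) * (1 / √N) * N : ℝ) : ℂ) = ((1:ℝ):ℂ) := by rw [h2]
    rw [Complex.ofReal_mul, Complex.ofReal_mul, Complex.ofReal_one, Complex.ofReal_natCast] at h3
    exact h3
  have hcn : ‖c‖ = 1 / √N := by
    rw [Complex.norm_real, Real.norm_of_nonneg (by positivity)]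
  let V : H →ₗ[ℂ] O := c • ∑ n ∈ Finset.range N, F n
  have hV : ∀ η, V η = c • ∑ n ∈ Finset.range N, F n η := by
    intro η
    simp only [LinearMap.smul_apply, LinearMap.sum_apply, V]
  have hVV : ∀ ξ η, star (V ξ) * V η =
      ((starRingEnd ℂ) c * c) • ∑ n ∈ Finset.range N, star (F n ξ) * F n η := by
    intro ξ η
    rw [hV, hV, star_smul, smul_mul_smul_comm, star_sum, Finset.sum_mul]
    congr 1
    refine Finset.sum_congr rfl fun a ha => ?_
    rw [Finset.mul_sum, Finset.sum_eq_single a]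
    · intro b hb hba
      exact hcross a b (Finset.mem_range.1 ha) (Finset.mem_range.1 hb) (Ne.symm hba) ξ η
    · intro hna; exact absurd ha hna
  have hc2 : ∀ (A B : O) (r : ℝ), ‖A‖ ≤ r → ‖B‖ ≤ r → ‖c • (A - B)‖ ≤ 2 / √N * r := by
    intro A B r hA hB
    rw [norm_smul, hcn]
    calc 1 / √N * ‖A - B‖ ≤ 1 / √N * (r + r) := by
          gcongr; exact (norm_sub_le _ _).trans (add_le_add hA hB)
      _ = 2 / √N * r := by ring
  have hpi1 : ∀ η, ‖π s₁ η‖ ≤ ‖η‖ := fun η => (norm_pi_apply_le π s₁ η).trans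
    (mul_le_of_le_one_left (norm_nonneg _) (cnorm_le h).1)
  have hpi2 : ∀ η, ‖π s₂ η‖ ≤ ‖η‖ := fun η => (norm_pi_apply_le π s₂ η).trans
    (mul_le_of_le_one_left (norm_nonneg _) (cnorm_le h).2)
  have hpi3 : ∀ η, ‖π (star s₁) η‖ ≤ ‖η‖ := fun η => (norm_pi_apply_le π _ η).trans
    (mul_le_of_le_one_left (norm_nonneg _) (by rw [norm_star]; exact (cnorm_le h).1))
  have hpi4 : ∀ η, ‖π (star s₂) η‖ ≤ ‖η‖ := fun η => (norm_pi_apply_le π _ η).trans
    (mul_le_of_le_one_left (norm_nonneg _) (by rw [norm_star]; exact (cnorm_le h).2))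
  refine ⟨V, fun η => ?_, fun η => ?_, fun η => ?_, fun η => ?_, fun η => ?_, fun η => ?_⟩
  · have h1 : ‖V η‖ ^ 2 ≤ ‖η‖ ^ 2 := by
      rw [pow_two, ← CStarRing.norm_star_mul_self, hVV, norm_smul]
      have h2 : ‖∑ n ∈ Finset.range N, star (F n η) * F n η‖ ≤ N * ‖η‖ ^ 2 := by
        refine (norm_sum_le _ _).trans ?_
        have : ∀ n ∈ Finset.range N, ‖star (F n η) * F n η‖ ≤ ‖η‖ ^ 2 := by
          intro n _
          rw [CStarRing.norm_star_mul_self, ← pow_two]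
          gcongr
          exact hFn n η
        refine (Finset.sum_le_sum this).trans ?_
        simp
      have h3 : ‖(starRingEnd ℂ) c * c‖ * N = 1 := by
        have := congrArg norm hcc
        rw [norm_mul, Complex.norm_natCast, norm_one] at this
        exact this
      calc ‖(starRingEnd ℂ) c * c‖ * ‖∑ n ∈ Finset.range N, star (F n η) * F n η‖
          ≤ ‖(starRingEnd ℂ) c * c‖ * (N * ‖η‖ ^ 2) := by (clear * - h2; gcongr)
        _ = ‖η‖ ^ 2 := by rw [← mul_assoc, h3, one_mul]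
    exact le_of_sq_le_sq h1 (norm_nonneg _)
  · rw [hVV]
    have h2 : ∑ n ∈ Finset.range N, star (F n ξ₀) * F n η = (N : ℂ) • ⟪ξ₀, η⟫_ℂ • (1 : O) := by
      rw [Finset.sum_congr rfl (g := fun _ => ⟪ξ₀, η⟫_ℂ • (1 : O))]
      · simp only [Finset.sum_const, Finset.card_range, nsmul_eq_mul, Algebra.mul_smul_comm, mul_one, Nat.cast_smul_eq_nsmul]
      · intro n hn
        refine iter_inner π h ξ₀ N U (fun ξ hξ η => ?_) n 0
          (by have := Finset.mem_range.1 hn; omega) ξ₀ (mem_filt_zero π ξ₀) η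
        rw [hUU, hW2 ξ hξ]
    rw [h2, ← mul_smul, hcc, one_smul]
  · have e : s₁ * V η - V (π s₁ η) = c • (F N (π s₁ η) - F 0 (π s₁ η)) := by
      rw [hV, hV, mul_smul_comm, ← smul_sub, Finset.mul_sum]
      congr 1
      rw [Finset.sum_congr rfl (g := fun n => F (n + 1) (π s₁ η))]
      · rw [← Finset.sum_range_succ_sub_sum (fun n => F n (π s₁ η))]
        rw [Finset.sum_range_succ' (fun n => F n (π s₁ η)) N]
        have h3 := Finset.sum_range_succ (fun n => F n (π s₁ η)) N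
        abel
      · intro n _
        rw [hFs, lam_pi_s₁ π h]
    rw [e]
    exact hc2 _ _ _ ((hFn _ _).trans (hpi1 η)) ((hFn _ _).trans (hpi1 η))
  · have e : s₂ * V η - V (π s₂ η) = c • (F N (π s₂ η) - F 0 (π s₂ η)) := by
      rw [hV, hV, mul_smul_comm, ← smul_sub, Finset.mul_sum]
      congr 1
      rw [Finset.sum_congr rfl (g := fun n => F (n + 1) (π s₂ η))]
      · rw [← Finset.sum_range_succ_sub_sum (fun n => F n (π s₂ η))]
        rw [Finset.sum_range_succ' (fun n => F n (π s₂ η)) N]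
        have h3 := Finset.sum_range_succ (fun n => F n (π s₂ η)) N
        abel
      · intro n _
        rw [hFs, lam_pi_s₂ π h]
    rw [e]
    exact hc2 _ _ _ ((hFn _ _).trans (hpi2 η)) ((hFn _ _).trans (hpi2 η))
  · obtain ⟨M, rfl⟩ : ∃ M, N = M + 1 := ⟨N - 1, by omega⟩
    have e : star s₁ * V η - V (π (star s₁) η) =
        c • (star s₁ * F 0 η - F M (π (star s₁) η)) := by
      rw [hV, hV, mul_smul_comm, ← smul_sub, Finset.mul_sum, Finset.sum_range_succ',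
        Finset.sum_range_succ (fun n => F n (π (star s₁) η))]
      congr 1
      rw [Finset.sum_congr rfl (g := fun n => F n (π (star s₁) η))]
      · abel
      · intro n _
        rw [hFs, star_s₁_lam π h]
    rw [e]
    refine hc2 _ _ _ ?_ ((hFn _ _).trans (hpi3 η))
    calc ‖star s₁ * F 0 η‖ ≤ ‖star s₁‖ * ‖F 0 η‖ := norm_mul_le _ _
      _ ≤ 1 * ‖η‖ := by
          gcongr
          · rw [norm_star]; exact (cnorm_le h).1
          · exact hFn 0 η
      _ = ‖η‖ := one_mul _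
  · obtain ⟨M, rfl⟩ : ∃ M, N = M + 1 := ⟨N - 1, by omega⟩
    have e : star s₂ * V η - V (π (star s₂) η) =
        c • (star s₂ * F 0 η - F M (π (star s₂) η)) := by
      rw [hV, hV, mul_smul_comm, ← smul_sub, Finset.mul_sum, Finset.sum_range_succ',
        Finset.sum_range_succ (fun n => F n (π (star s₂) η))]
      congr 1
      rw [Finset.sum_congr rfl (g := fun n => F n (π (star s₂) η))]
      · abel
      · intro n _
        rw [hFs, star_s₂_lam π h]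
    rw [e]
    refine hc2 _ _ _ ?_ ((hFn _ _).trans (hpi4 η))
    calc ‖star s₂ * F 0 η‖ ≤ ‖star s₂‖ * ‖F 0 η‖ := norm_mul_le _ _
      _ ≤ 1 * ‖η‖ := by
          gcongr
          · rw [norm_star]; exact (cnorm_le h).2
          · exact hFn 0 η
      _ = ‖η‖ := one_mul _

end Tower

end

end Vale.Agent.P083W.K
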