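import Vale.Agent.P083W.KCuntz
import Mathlib.Analysis.SpecialFunctions.Pow.Asymptotics

open scoped InnerProductSpace ComplexConjugate
open Filter Topology

namespace Vale.Agent.P083W.K

open Vale.Agent.P083

noncomputable section

section Vector

variable {O : Type*} [CStarAlgebra O] {s₁ s₂ : O}
variable {H : Type*} [NormedAddCommGroup H] [InnerProductSpace ℂ H] [CompleteSpace H]
variable (π : O →⋆ₐ[ℂ] (H →L[ℂ] H))

/-- asymptotic intertwining of `x` by the sequence `V` -/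
def Good (V : ℕ → (H →ₗ[ℂ] O)) (x : O) : Prop :=
  ∀ ε : ℝ, 0 < ε → ∀ᶠ n in atTop, ∀ η : H, ‖x * V n η - V n (π x η)‖ ≤ ε * ‖η‖

theorem Good.add {V : ℕ → (H →ₗ[ℂ] O)} {x y : O} (hx : Good π V x) (hy : Good π V y) :
    Good π V (x + y) := by
  intro ε hε
  filter_upwards [hx (ε / 2) (by positivity), hy (ε / 2) (by positivity)] with n h1 h2 η
  have e : (x + y) * V n η - V n (π (x + y) η) =
      (x * V n η - V n (π x η)) + (y * V n η - V n (π y η)) := by
    rw [map_add, add_apply, map_add]; noncomm_ring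
  rw [e]
  calc _ ≤ ‖x * V n η - V n (π x η)‖ + ‖y * V n η - V n (π y η)‖ := norm_add_le _ _
    _ ≤ ε / 2 * ‖η‖ + ε / 2 * ‖η‖ := add_le_add (h1 η) (h2 η)
    _ = ε * ‖η‖ := by ring

theorem Good.mul {V : ℕ → (H →ₗ[ℂ] O)} {x y : O} (hx : Good π V x) (hy : Good π V y) :
    Good π V (x * y) := by
  intro ε hε
  have hK : 0 < ‖x‖ + ‖y‖ + 1 := by positivity
  filter_upwards [hx (ε / (‖x‖ + ‖y‖ + 1)) (by positivity),
    hy (ε / (‖x‖ + ‖y‖ + 1)) (by positivity)] with n h1 h2 η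
  have e : (x * y) * V n η - V n (π (x * y) η) =
      x * (y * V n η - V n (π y η)) + (x * V n (π y η) - V n (π x (π y η))) := by
    rw [pi_mul_apply π]; noncomm_ring
  rw [e]
  calc _ ≤ ‖x * (y * V n η - V n (π y η))‖ + ‖x * V n (π y η) - V n (π x (π y η))‖ :=
        norm_add_le _ _
    _ ≤ ‖x‖ * (ε / (‖x‖ + ‖y‖ + 1) * ‖η‖) + ε / (‖x‖ + ‖y‖ + 1) * (‖y‖ * ‖η‖) := by
        gcongr
        · exact (norm_mul_le _ _).trans (by gcongr; exact h2 η)
        · exact (h1 _).trans (by gcongr; exact norm_pi_apply_le π y η)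
    _ = ε * ‖η‖ * ((‖x‖ + ‖y‖) / (‖x‖ + ‖y‖ + 1)) := by ring
    _ ≤ ε * ‖η‖ * 1 := by
        gcongr
        rw [div_le_one hK]; linarith
    _ = ε * ‖η‖ := mul_one _

theorem Good.algMap (V : ℕ → (H →ₗ[ℂ] O)) (c : ℂ) : Good π V (algebraMap ℂ O c) := by
  intro ε hε
  refine Eventually.of_forall fun n η => ?_
  have e : π (algebraMap ℂ O c) η = c • η := by
    rw [AlgHomClass.commutes, Algebra.algebraMap_eq_smul_one]; rfl
  rw [e, Algebra.algebraMap_eq_smul_one, smul_mul_assoc, one_mul, map_smul, sub_self, norm_zero]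
  positivity

theorem Good.closure {V : ℕ → (H →ₗ[ℂ] O)} (hV : ∀ n η, ‖V n η‖ ≤ ‖η‖) {S : Set O}
    (hS : ∀ x ∈ S, Good π V x) {x : O} (hx : x ∈ closure S) : Good π V x := by
  intro ε hε
  obtain ⟨y, hy, hxy⟩ := Metric.mem_closure_iff.1 hx (ε / 4) (by positivity)
  rw [dist_eq_norm] at hxy
  filter_upwards [hS y hy (ε / 2) (by positivity)] with n h1 η
  have e : x * V n η - V n (π x η) =
      (x - y) * V n η + (y * V n η - V n (π y η)) - V n (π (x - y) η) := by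
    rw [map_sub, sub_apply, map_sub]; noncomm_ring
  rw [e]
  calc _ ≤ ‖(x - y) * V n η‖ + ‖y * V n η - V n (π y η)‖ + ‖V n (π (x - y) η)‖ :=
        (norm_sub_le _ _).trans (by gcongr; exact norm_add_le _ _)
    _ ≤ ε / 4 * ‖η‖ + ε / 2 * ‖η‖ + ε / 4 * ‖η‖ := by
        gcongr
        · exact (norm_mul_le _ _).trans (by gcongr; exact hV n η)
        · exact h1 η
        · exact (hV n _).trans ((norm_pi_apply_le π _ _).trans (by gcongr))
    _ = ε * ‖η‖ := by ring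

theorem excise_vector (h : CuntzTwo s₁ s₂) (ξ₀ : H) (hξ : ‖ξ₀‖ = 1) (X : Finset O) {ε : ℝ}
    (hε : 0 < ε) :
    ∃ v : O, star v * v = 1 ∧ ∀ x ∈ X, ‖star v * x * v - ⟪ξ₀, π x ξ₀⟫_ℂ • (1 : O)‖ ≤ ε := by
  choose V hV1 hV2 hV3 hV4 hV5 hV6 using fun n : ℕ => tower π h ξ₀ (n + 1) (Nat.succ_pos n)
  have hlim : Tendsto (fun n : ℕ => 2 / √((n + 1 : ℕ) : ℝ)) atTop (𝓝 0) := by
    have h1 : Tendsto (fun n : ℕ => ((n + 1 : ℕ) : ℝ)) atTop atTop :=
      (tendsto_natCast_atTop_atTop (R := ℝ)).comp (tendsto_add_atTop_nat 1)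
    exact Tendsto.const_div_atTop (Real.tendsto_sqrt_atTop.comp h1) 2
  have gen : ∀ x : O, (∀ n η, ‖x * V n η - V n (π x η)‖ ≤ 2 / √((n + 1 : ℕ) : ℝ) * ‖η‖) →
      Good π V x := by
    intro x hx ε hε
    filter_upwards [hlim.eventually_le_const hε] with n hn η
    exact (hx n η).trans (by gcongr)
  have hgood : ∀ x ∈ StarAlgebra.adjoin ℂ ({s₁, s₂} : Set O), Good π V x ∧ Good π V (star x) := by
    intro x hx
    induction hx using StarAlgebra.adjoin_induction with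
    | mem x hx =>
      rcases hx with rfl | rfl
      · exact ⟨gen _ hV3, gen _ hV5⟩
      · exact ⟨gen _ hV4, gen _ hV6⟩
    | algebraMap r =>
      refine ⟨Good.algMap π V r, ?_⟩
      rw [← algebraMap_star_comm]
      exact Good.algMap π V _
    | add x y _ _ hx hy => exact ⟨hx.1.add π hy.1, by rw [star_add]; exact hx.2.add π hy.2⟩
    | mul x y _ _ hx hy => exact ⟨hx.1.mul π hy.1, by rw [star_mul]; exact hy.2.mul π hx.2⟩
    | star x _ hx => exact ⟨hx.2, by rw [star_star]; exact hx.1⟩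
  have hall : ∀ x : O, Good π V x := by
    intro x
    have hx : x ∈ (StarAlgebra.adjoin ℂ ({s₁, s₂} : Set O)).topologicalClosure := by
      rw [h.gen]; trivial
    exact Good.closure π hV1 (fun y hy => (hgood y hy).1) hx
  obtain ⟨n, hn⟩ := ((Finset.eventually_all X).2 fun x _ => hall x ε hε).exists
  have hself : ⟪ξ₀, ξ₀⟫_ℂ = 1 := by rw [inner_self_eq_norm_sq_to_K, hξ]; simp
  refine ⟨V n ξ₀, ?_, fun x hx => ?_⟩
  · rw [hV2 n ξ₀, hself, one_smul]
  · rw [← hV2 n (π x ξ₀), mul_assoc, ← mul_sub]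
    calc _ ≤ ‖star (V n ξ₀)‖ * ‖x * V n ξ₀ - V n (π x ξ₀)‖ := norm_mul_le _ _
      _ ≤ 1 * (ε * ‖ξ₀‖) := by
          gcongr
          · rw [norm_star, ← hξ]; exact hV1 n ξ₀
          · exact hn x hx ξ₀
      _ = ε := by rw [hξ]; ring

end Vector

end

end Vale.Agent.P083W.K
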