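import Vale.Agent.P083W.Uniq

/-!
# Kirchberg's embedding problem for the universal Cuntz algebra and the quotient ultrapower
-/

set_option linter.all false

open Filter Topology
open scoped ENNReal

namespace Vale.Agent.P083W

open Vale.Agent.P083 Vale.Agent.P083N Vale.Agent.P083.H903

noncomputable section

theorem exists_O2 : ∃ (O : Type) (_ : CStarAlgebra O) (s₁ s₂ : O), IsO2 s₁ s₂ := by
  obtain ⟨O, _, _, s₁, s₂, h⟩ := exists_cuntz
  exact ⟨O, inferInstance, s₁, s₂, isO2_of h⟩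

theorem isO2_iff {O : Type} [CStarAlgebra O] (s₁ s₂ : O) :
    IsO2 s₁ s₂ ↔ Nontrivial O ∧ CuntzTwo s₁ s₂ :=
  ⟨of_isO2, fun h => by have := h.1; exact isO2_of h.2⟩

/-- The quotient `ℓ^∞(ℕ, O) / I_ω(O)` is an ultraproduct of the constant sequence. -/
theorem exists_q (O : Type) [CStarAlgebra O] [Nontrivial O] (ω : Ultrafilter ℕ) :
    ∃ q : (ℕ → O) → Ultrapower ω O, IsUltraprod (fun _ => O) ω (Ultrapower ω O) q := by
  classical
  have hmem : ∀ x : ℕ → O, IsBddSeq (B := fun _ => O) x → Memℓp x ∞ := by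
    rintro x ⟨C, hC⟩
    refine memℓp_infty ⟨C, ?_⟩
    rintro _ ⟨n, rfl⟩
    exact hC n
  have hbdd : ∀ x : Bdd O, IsBddSeq (B := fun _ => O) (x : ℕ → O) := fun x =>
    ⟨‖x‖, fun n => Bdd.norm_apply_le x n⟩
  let g : (ℕ → O) → Ultrapower ω O := fun x =>
    if h : Memℓp x ∞ then Ultrapower.mk ω (⟨x, h⟩ : Bdd O) else 0
  have hg : ∀ (x : ℕ → O) (h : Memℓp x ∞), g x = Ultrapower.mk ω (⟨x, h⟩ : Bdd O) :=
    fun x h => dif_pos h
  have hg' : ∀ x : Bdd O, g x = Ultrapower.mk ω x := fun x => hg x x.2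
  refine ⟨g, ?_, ?_, ?_, ?_, ?_, ?_, ?_⟩
  · rw [← Ultrapower.mk_one]
    exact hg' 1
  · intro x y hx hy
    rw [hg x (hmem x hx), hg y (hmem y hy), ← Ultrapower.mk_add]
    exact hg' (⟨x, hmem x hx⟩ + ⟨y, hmem y hy⟩)
  · intro x y hx hy
    rw [hg x (hmem x hx), hg y (hmem y hy), ← Ultrapower.mk_mul]
    exact hg' (⟨x, hmem x hx⟩ * ⟨y, hmem y hy⟩)
  · intro c x hx
    rw [hg x (hmem x hx), ← Ultrapower.mk_smul]
    exact hg' (c • ⟨x, hmem x hx⟩)
  · intro x hx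
    rw [hg x (hmem x hx), ← Ultrapower.mk_star]
    exact hg' (star ⟨x, hmem x hx⟩)
  · intro z
    obtain ⟨x, hx⟩ := Ultrapower.mk_surjective ω z
    exact ⟨x, hbdd x, by rw [hg' x, hx]⟩
  · intro x hx
    rw [hg x (hmem x hx), ← Ultrapower.mk_zero, Ultrapower.mk_eq_mk]
    have : ∀ n, ((⟨x, hmem x hx⟩ : Bdd O) : ℕ → O) n - ((0 : Bdd O) : ℕ → O) n = x n := fun n => by
      show x n - 0 = x n
      rw [sub_zero]
    simp only [this]

/-- The quotient of the statement is the ultrapower of the proof. -/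
def toU (ω : Ultrafilter ℕ) (B : Type) [CStarAlgebra B] [Nontrivial B] :
    UPow ω B ≃⋆ₐ[ℂ] Ultrapower ω B where
  toFun x := x
  invFun x := x
  left_inv _ := rfl
  right_inv _ := rfl
  map_mul' _ _ := rfl
  map_add' _ _ := rfl
  map_star' _ := rfl
  map_smul' _ _ := rfl

/-- The quotient is a C*-algebra for the norm `lim_ω ‖b_n‖`. -/
theorem upow_cstar (ω : Ultrafilter ℕ) (B : Type) [CStarAlgebra B] [Nontrivial B] :
    ∃ (Q : Type) (_ : CStarAlgebra Q) (e : UPow ω B ≃⋆ₐ[ℂ] Q), ∀ x : Linf B,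
      Tendsto (fun n => ‖x n‖) ω (𝓝 ‖e (Ideal.Quotient.mk (Iω ω B) x)‖) :=
  ⟨Ultrapower ω B, inferInstance, toU ω B, fun x => Ultrapower.tendsto_norm (ω := ω) x⟩

/-- Constant sequences give a unital embedding of `B` into its ultrapower. -/
theorem embeds_self (ω : Ultrafilter ℕ) (B : Type) [CStarAlgebra B] [Nontrivial B] :
    EmbedsUnitally ω B B := by
  have hmem : ∀ b : B, Memℓp (fun _ : ℕ => b) ∞ := fun b => by
    refine memℓp_infty ⟨‖b‖, ?_⟩
    rintro _ ⟨n, rfl⟩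
    exact le_rfl
  let L : B → Linf B := fun b => ⟨fun _ => b, hmem b⟩
  let q : Linf B →+* UPow ω B := Ideal.Quotient.mk (Iω ω B)
  let φ : B →⋆ₐ[ℂ] UPow ω B :=
    { toFun := fun b => q (L b)
      map_one' := by rw [← map_one q]; rfl
      map_mul' := fun x y => by rw [← map_mul q]; rfl
      map_zero' := by rw [← map_zero q]; rfl
      map_add' := fun x y => by rw [← map_add q]; rfl
      commutes' := fun c => by
        rw [Algebra.algebraMap_eq_smul_one, Algebra.algebraMap_eq_smul_one, ← map_one q]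
        rfl
      map_star' := fun x => rfl }
  refine ⟨φ, fun x y hxy => ?_⟩
  have h1 : Ultrapower.mk ω (L x) = Ultrapower.mk ω (L y) := hxy
  rw [Ultrapower.mk_eq_mk] at h1
  have h2 : Tendsto (fun _ : ℕ => ‖x - y‖) ω (𝓝 0) := h1
  have h3 : ‖x - y‖ = 0 := tendsto_nhds_unique tendsto_const_nhds h2
  exact sub_eq_zero.1 (norm_eq_zero.1 h3)

theorem main : ∃ (A : Type) (_ : CStarAlgebra A), Nontrivial A ∧
    TopologicalSpace.SeparableSpace A ∧
    ∀ (O : Type) [CStarAlgebra O] [Nontrivial O] (s₁ s₂ : O), IsO2 s₁ s₂ → ∀ ω : Ultrafilter ℕ,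
      ¬ EmbedsUnitally ω O A ∧ ¬ Embeds ω O A ∧
        ∀ (φ : A →⋆ₙₐ[ℂ] UPow ω O) (a : A), φ a = 0 := by
  obtain ⟨A, hA, hA1, hA2, -, h⟩ := main_final
  refine ⟨A, hA, hA1, hA2, fun O _ _ s₁ s₂ hO ω => ?_⟩
  obtain ⟨q, hq⟩ := exists_q O ω
  have h0 : ∀ (φ : A →⋆ₙₐ[ℂ] UPow ω O) (a : A), φ a = 0 := fun φ a => by
    have h1 := h (fun _ => O) (fun _ => Or.inr (Or.inr ⟨s₁, s₂, (of_isO2 hO).2⟩)) ω _ q hq
      ((toU ω O : UPow ω O →⋆ₙₐ[ℂ] Ultrapower ω O).comp φ)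
    exact congrArg (fun f : A →⋆ₙₐ[ℂ] Ultrapower ω O => f a) h1
  have h1 : ¬ Embeds ω O A := by
    rintro ⟨φ, hφ⟩
    have h2 : φ 1 = φ 0 := by rw [h0 φ, h0 φ]
    exact one_ne_zero (hφ h2)
  exact ⟨fun ⟨φ, hφ⟩ => h1 ⟨φ.toNonUnitalStarAlgHom, hφ⟩, h1, h0⟩

theorem separable {O : Type} [CStarAlgebra O] {s₁ s₂ : O} (h : CuntzTwo s₁ s₂) :
    TopologicalSpace.SeparableSpace O := by
  have hc : ({s₁, s₂} ∪ star {s₁, s₂} : Set O).Countable := by
    refine (Set.Finite.union (Set.toFinite _) ?_).countable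
    exact (Set.toFinite ({s₁, s₂} : Set O)).star
  have h1 : TopologicalSpace.IsSeparable
      ((StarAlgebra.adjoin ℂ ({s₁, s₂} : Set O) : StarSubalgebra ℂ O) : Set O) := by
    have e : ((StarAlgebra.adjoin ℂ ({s₁, s₂} : Set O) : StarSubalgebra ℂ O) : Set O) =
        (Submodule.span ℂ (Submonoid.closure ({s₁, s₂} ∪ star {s₁, s₂} : Set O) : Set O) :
          Set O) := by
      rw [← StarAlgebra.adjoin_eq_span]
      rfl
    rw [e]
    refine TopologicalSpace.IsSeparable.span (Set.Countable.isSeparable ?_)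
    have : Countable ({s₁, s₂} ∪ star {s₁, s₂} : Set O) := hc
    rw [Submonoid.closure_eq_mrange, MonoidHom.coe_mrange]
    have : Countable (FreeMonoid ({s₁, s₂} ∪ star {s₁, s₂} : Set O)) :=
      inferInstanceAs (Countable (List _))
    exact Set.countable_range _
  have h2 := h1.closure
  have h3 : closure ((StarAlgebra.adjoin ℂ ({s₁, s₂} : Set O) : StarSubalgebra ℂ O) : Set O) =
      Set.univ := by
    have := congrArg (fun D : StarSubalgebra ℂ O => (D : Set O)) h.gen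
    exact this
  rw [h3] at h2
  exact TopologicalSpace.isSeparable_univ_iff.1 h2

end

end Vale.Agent.P083W
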