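import Vale.Agent.P083W.Defs
import Vale.Agent.P083W.KState
import Vale.Agent.P083.H903.Final
import Mathlib.RingTheory.SimpleRing.Basic

/-!
# Cuntz's uniqueness theorem
-/

set_option linter.all false

open Filter Topology
open scoped CStarAlgebra

namespace Vale.Agent.P083W

open Vale.Agent.P083 Vale.Agent.P083N

noncomputable section

theorem CuntzTwo.rel {O : Type} [CStarAlgebra O] {s₁ s₂ : O} (h : CuntzTwo s₁ s₂) :
    CuntzRel s₁ s₂ := ⟨h.iso₁, h.iso₂, h.sum⟩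

/-- Compression of a positive element to a multiple of its norm. -/
theorem compress {O : Type} [CStarAlgebra O] [Nontrivial O] {s₁ s₂ : O} (h : CuntzTwo s₁ s₂)
    (x : O) {ε : ℝ} (hε : 0 < ε) :
    ∃ v : O, star v * v = 1 ∧
      ‖star v * (star x * x) * v - ((‖x‖ ^ 2 : ℝ) : ℂ) • (1 : O)‖ ≤ ε := by
  let _ := CStarAlgebra.spectralOrder O
  let _ := CStarAlgebra.spectralOrderedRing O
  obtain ⟨g, hg, hgx⟩ := K.exists_state (O := O) (h := star x * x) (star_mul_self_nonneg x)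
  obtain ⟨v, hv, hv2⟩ := K.excise_state h hg {star x * x} hε
  refine ⟨v, hv, ?_⟩
  have h1 := hv2 _ (Finset.mem_singleton_self _)
  rwa [hgx, CStarRing.norm_star_mul_self, ← pow_two] at h1

/-- Unital *-homomorphisms on an algebra generated by a Cuntz pair do not decrease norms. -/
theorem norm_le_hom {O B : Type} [CStarAlgebra O] [CStarAlgebra B] [Nontrivial B] {s₁ s₂ : O}
    (h : CuntzTwo s₁ s₂) (φ : O →⋆ₐ[ℂ] B) (x : O) : ‖x‖ ≤ ‖φ x‖ := by
  have : Nontrivial O := φ.toRingHom.domain_nontrivial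
  have key : ‖x‖ ^ 2 ≤ ‖φ x‖ ^ 2 := by
    refine le_of_forall_pos_le_add fun ε hε => ?_
    obtain ⟨v, hv, hv2⟩ := compress h x hε
    have h1 : ‖φ (star v * (star x * x) * v - ((‖x‖ ^ 2 : ℝ) : ℂ) • (1 : O))‖ ≤ ε :=
      (NonUnitalStarAlgHom.norm_apply_le φ _).trans hv2
    rw [map_sub, map_smul, map_one, map_mul, map_mul, map_mul, map_star, map_star] at h1
    have hw : star (φ v) * φ v = 1 := by rw [← map_star, ← map_mul, hv, map_one]
    have hw1 : ‖φ v‖ = 1 := by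
      have h2 := CStarRing.norm_star_mul_self (x := φ v)
      rw [hw, CStarRing.norm_one] at h2
      nlinarith [norm_nonneg (φ v)]
    have h3 : ‖star (φ v) * (star (φ x) * φ x) * φ v‖ ≤ ‖φ x‖ ^ 2 := by
      calc _ ≤ ‖star (φ v)‖ * ‖star (φ x) * φ x‖ * ‖φ v‖ :=
            (norm_mul_le _ _).trans (by gcongr; exact norm_mul_le _ _)
        _ = ‖φ x‖ ^ 2 := by
            rw [norm_star, hw1, CStarRing.norm_star_mul_self]; ring
    have h4 : ‖((‖x‖ ^ 2 : ℝ) : ℂ) • (1 : B)‖ = ‖x‖ ^ 2 := by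
      rw [norm_smul, CStarRing.norm_one, mul_one, Complex.norm_real,
        Real.norm_of_nonneg (by positivity)]
    have h5 := norm_sub_norm_le (((‖x‖ ^ 2 : ℝ) : ℂ) • (1 : B))
      (star (φ v) * (star (φ x) * φ x) * φ v)
    rw [norm_sub_rev] at h1
    linarith
  exact le_of_sq_le_sq key (norm_nonneg _)

theorem injective_hom {O B : Type} [CStarAlgebra O] [CStarAlgebra B] [Nontrivial B] {s₁ s₂ : O}
    (h : CuntzTwo s₁ s₂) (φ : O →⋆ₐ[ℂ] B) : Function.Injective φ := by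
  refine (injective_iff_map_eq_zero φ).2 fun x hx => ?_
  have := norm_le_hom h φ x
  rw [hx, norm_zero] at this
  exact norm_le_zero_iff.1 this

/-- An algebra generated by a Cuntz pair is simple. -/
theorem simple {O : Type} [CStarAlgebra O] [Nontrivial O] {s₁ s₂ : O} (h : CuntzTwo s₁ s₂) :
    IsSimpleRing O := by
  refine IsSimpleRing.of_eq_bot_or_eq_top fun I => ?_
  by_cases hI : I = ⊥
  · exact Or.inl hI
  refine Or.inr ?_
  obtain ⟨x, hx, hx0⟩ : ∃ x ∈ I, x ≠ 0 := by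
    by_contra hc
    push Not at hc
    exact hI (le_antisymm (fun x hx => by simpa using hc x hx) bot_le)
  have hpos : 0 < ‖x‖ ^ 2 := by have := norm_pos_iff.2 hx0; positivity
  obtain ⟨v, -, hv⟩ := compress h x (half_pos hpos)
  set y : O := star v * (star x * x) * v with hy
  have hyI : y ∈ I := I.mul_mem_right _ _ (I.mul_mem_left _ _ (I.mul_mem_left _ _ hx))
  set c : ℂ := ((‖x‖ ^ 2 : ℝ) : ℂ) with hc
  have hc0 : c ≠ 0 := by rw [hc]; exact_mod_cast hpos.ne'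
  have hcn : ‖c‖ = ‖x‖ ^ 2 := by
    rw [hc, Complex.norm_real, Real.norm_of_nonneg hpos.le]
  have h1 : ‖(1 : O) - c⁻¹ • y‖ < 1 := by
    have e : (1 : O) - c⁻¹ • y = -(c⁻¹ • (y - c • (1 : O))) := by
      rw [smul_sub, smul_smul, inv_mul_cancel₀ hc0, one_smul]; abel
    rw [e, norm_neg, norm_smul, norm_inv, hcn]
    calc (‖x‖ ^ 2)⁻¹ * ‖y - c • (1 : O)‖ ≤ (‖x‖ ^ 2)⁻¹ * (‖x‖ ^ 2 / 2) := by gcongr
      _ = 1 / 2 := by field_simp
      _ < 1 := by norm_num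
  have hu : IsUnit (c⁻¹ • y) := by
    have := (Units.oneSub ((1 : O) - c⁻¹ • y) h1).isUnit
    simpa using this
  have hm : c⁻¹ • y ∈ I := by
    rw [Algebra.smul_def]
    exact I.mul_mem_left _ _ hyI
  obtain ⟨u, hu⟩ := hu
  rw [← I.one_mem_iff, ← u.inv_mul, hu]
  exact I.mul_mem_left _ _ hm

/-- Two unital *-homomorphisms which agree on the generators agree. -/
theorem hom_ext {O B : Type} [CStarAlgebra O] [CStarAlgebra B] {s₁ s₂ : O}
    (h : CuntzTwo s₁ s₂) {φ ψ : O →⋆ₐ[ℂ] B} (h1 : φ s₁ = ψ s₁) (h2 : φ s₂ = ψ s₂) : φ = ψ := by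
  have hle : StarAlgebra.adjoin ℂ ({s₁, s₂} : Set O) ≤ StarAlgHom.equalizer φ ψ := by
    refine StarAlgebra.adjoin_le ?_
    rintro x (rfl | rfl)
    · exact h1
    · exact h2
  have hcl : IsClosed ((StarAlgHom.equalizer φ ψ : StarSubalgebra ℂ O) : Set O) :=
    isClosed_eq (map_continuous φ) (map_continuous ψ)
  have := StarSubalgebra.topologicalClosure_minimal hle hcl
  rw [h.gen] at this
  ext x
  exact this (StarSubalgebra.mem_top (x := x))

/-- The closed subalgebra generated by a pair satisfying the relations. -/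
theorem exists_gen {C : Type} [CStarAlgebra C] {t₁ t₂ : C} (h : CuntzRel t₁ t₂) :
    ∃ (D : Type) (_ : CStarAlgebra D) (d₁ d₂ : D) (ι : D →⋆ₐ[ℂ] C), CuntzTwo d₁ d₂ ∧
      ι d₁ = t₁ ∧ ι d₂ = t₂ ∧
      ∀ x, ι x ∈ (StarAlgebra.adjoin ℂ ({t₁, t₂} : Set C)).topologicalClosure := by
  let S : Set C := {t₁, t₂}
  let D : StarSubalgebra ℂ C := (StarAlgebra.adjoin ℂ S).topologicalClosure
  have hDcl : IsClosed (D : Set C) := StarSubalgebra.isClosed_topologicalClosure _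
  let hC : CStarAlgebra D := StarSubalgebra.cstarAlgebra D (h_closed := hDcl)
  have hsub : S ⊆ (D : Set C) :=
    (StarAlgebra.subset_adjoin ℂ S).trans (StarSubalgebra.le_topologicalClosure _)
  have m1 : t₁ ∈ D := hsub (Or.inl rfl)
  have m2 : t₂ ∈ D := hsub (Or.inr rfl)
  refine ⟨D, hC, ⟨t₁, m1⟩, ⟨t₂, m2⟩, D.subtype,
    ⟨Subtype.ext h.1, Subtype.ext h.2.1, Subtype.ext h.2.2, ?_⟩, rfl, rfl, fun x => x.2⟩
  refine adjoin_closure_top S _ ?_
  rw [Set.image_pair]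

/-- A unital *-homomorphism which is isometric and hits the generators is onto. -/
theorem surjective_hom {D O : Type} [CStarAlgebra D] [CStarAlgebra O] {s₁ s₂ : O}
    (h : CuntzTwo s₁ s₂) (φ : D →⋆ₐ[ℂ] O) (hφ : Function.Injective φ) {d₁ d₂ : D}
    (h1 : φ d₁ = s₁) (h2 : φ d₂ = s₂) : Function.Surjective φ := by
  have hle : StarAlgebra.adjoin ℂ ({s₁, s₂} : Set O) ≤ φ.range := by
    refine StarAlgebra.adjoin_le ?_
    rintro x (rfl | rfl)
    · exact ⟨d₁, h1⟩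
    · exact ⟨d₂, h2⟩
  have hcl : IsClosed ((φ.range : StarSubalgebra ℂ O) : Set O) :=
    (NonUnitalStarAlgHom.isometry φ hφ).isClosedEmbedding.isClosed_range
  have := StarSubalgebra.topologicalClosure_minimal hle hcl
  rw [h.gen] at this
  intro x
  exact this (StarSubalgebra.mem_top (x := x))

/-- **Cuntz's uniqueness theorem**: a nonzero C*-algebra generated by two isometries with
`s₁ s₁* + s₂ s₂* = 1` has the universal property. -/
theorem isO2_of {O : Type} [CStarAlgebra O] [Nontrivial O] {s₁ s₂ : O} (h : CuntzTwo s₁ s₂) :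
    IsO2 s₁ s₂ := by
  refine ⟨CuntzTwo.rel h, fun B _ t₁ t₂ ht => ?_⟩
  have hrel : CuntzRel ((s₁, t₁) : O × B) (s₂, t₂) :=
    ⟨Prod.ext h.iso₁ ht.1, Prod.ext h.iso₂ ht.2.1, Prod.ext h.sum ht.2.2⟩
  obtain ⟨D, _, d₁, d₂, ι, hD, e1, e2, -⟩ := exists_gen hrel
  let p : D →⋆ₐ[ℂ] O := (StarAlgHom.fst ℂ O B).comp ι
  let q : D →⋆ₐ[ℂ] B := (StarAlgHom.snd ℂ O B).comp ι
  have p1 : p d₁ = s₁ := by show (ι d₁).1 = _; rw [e1]
  have p2 : p d₂ = s₂ := by show (ι d₂).1 = _; rw [e2]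
  have q1 : q d₁ = t₁ := by show (ι d₁).2 = _; rw [e1]
  have q2 : q d₂ = t₂ := by show (ι d₂).2 = _; rw [e2]
  have hinj := injective_hom hD p
  let e : D ≃⋆ₐ[ℂ] O := StarAlgEquiv.ofBijective p ⟨hinj, surjective_hom h p hinj p1 p2⟩
  have f1 : e.symm s₁ = d₁ := by rw [← p1]; exact e.symm_apply_apply d₁
  have f2 : e.symm s₂ = d₂ := by rw [← p2]; exact e.symm_apply_apply d₂
  refine ⟨q.comp (e.symm : O →⋆ₐ[ℂ] D), ⟨?_, ?_⟩, fun ψ hψ => hom_ext h ?_ ?_⟩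
  · show q (e.symm s₁) = _
    rw [f1, q1]
  · show q (e.symm s₂) = _
    rw [f2, q2]
  · show _ = q (e.symm s₁)
    rw [f1, q1, hψ.1]
  · show _ = q (e.symm s₂)
    rw [f2, q2, hψ.2]

/-- The universal algebra is nonzero and generated by `s₁`, `s₂`. -/
theorem of_isO2 {O : Type} [CStarAlgebra O] {s₁ s₂ : O} (h : IsO2 s₁ s₂) :
    Nontrivial O ∧ CuntzTwo s₁ s₂ := by
  constructor
  · obtain ⟨B, _, _, t₁, t₂, ht⟩ := exists_cuntz
    obtain ⟨φ, -, -⟩ := h.2 B t₁ t₂ (CuntzTwo.rel ht)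
    exact φ.toRingHom.domain_nontrivial
  · refine ⟨h.1.1, h.1.2.1, h.1.2.2, ?_⟩
    obtain ⟨D, _, d₁, d₂, ι, hD, e1, e2, hι⟩ := exists_gen h.1
    obtain ⟨φ, ⟨f1, f2⟩, -⟩ := h.2 D d₁ d₂ (CuntzTwo.rel hD)
    obtain ⟨ψ, -, hψ⟩ := h.2 O s₁ s₂ h.1
    have h1 : ι.comp φ = StarAlgHom.id ℂ O := by
      rw [hψ (ι.comp φ) ⟨by show ι (φ s₁) = _; rw [f1, e1], by show ι (φ s₂) = _; rw [f2, e2]⟩,
        hψ (StarAlgHom.id ℂ O) ⟨rfl, rfl⟩]
    refine top_unique fun x _ => ?_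
    have h2 : ι (φ x) = x := congrArg (fun f : O →⋆ₐ[ℂ] O => f x) h1
    rw [← h2]
    exact hι _

theorem unique_iso {O O' : Type} [CStarAlgebra O] [CStarAlgebra O'] {s₁ s₂ : O} {t₁ t₂ : O'}
    (h : IsO2 s₁ s₂) (h' : IsO2 t₁ t₂) : ∃ e : O ≃⋆ₐ[ℂ] O', e s₁ = t₁ ∧ e s₂ = t₂ := by
  obtain ⟨φ, ⟨f1, f2⟩, -⟩ := h.2 O' t₁ t₂ h'.1
  obtain ⟨_, hc'⟩ := of_isO2 h'
  have hinj := injective_hom (of_isO2 h).2 φ
  exact ⟨StarAlgEquiv.ofBijective φ ⟨hinj, surjective_hom hc' φ hinj f1 f2⟩, f1, f2⟩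

end

end Vale.Agent.P083W
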